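import Vale.Agent.P338.Main

/-!
# P338: on-line multiplication with lookahead on multitape Turing machines
-/

namespace Vale.Agent.Results.P338.Lookahead

open Vale.Agent.P338

/-- There are `n`-bit numbers `Y n` such that every on-line machine `M`, with arbitrary initial
contents `w` of its work tapes, that outputs the `n` low-order bits of `x * Y n` for all `n`-bit
numbers `x` within `T` steps and with lookahead `L`, satisfies `T ≥ c n log (n / L)`; the constant
`c > 0` depends only on `M`. -/
theorem result : ∃ Y : ℕ → ℕ, (∀ n, Y n < 2 ^ n) ∧ ∀ M : Machine, ∃ c : ℝ, 0 < c ∧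
    ∀ (n L T : ℕ) (w : Fin M.K → ℤ → Fin M.G), 1 ≤ n → 1 ≤ L → L ≤ n →
      (∀ x < 2 ^ n, Computes M w n L T x (Y n)) → c * n * Real.log (n / L) ≤ T :=
  ⟨yy, fun _ => Nat.mod_lt _ (by positivity), fun M => tradeoff M⟩

end Vale.Agent.Results.P338.Lookahead
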